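import Vale.Agent.P263B87.S1
import Vale.Agent.P263B15.Rows

/-!
# P263B, row SUSP
-/

namespace Vale.Agent.P263B87

open Vale.Agent.P263.AD.Freu Vale.Agent.P263B15

theorem susp : SUSP := fun _ _ _ _ _ _ s k₀ =>
  ⟨suspS s k₀, fun a t => ⟨(jSu_fst a t).trans (jS_smash a.1.1 t), fun h => jSu_snd a t h⟩⟩

end Vale.Agent.P263B87
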