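import Vale.Agent.P263B15.Defs

/-!
# P263B, row SUSP: the model `Su` of the suspension, first part
-/

open Topology Set OnePoint

set_option linter.unusedSectionVars false

namespace Vale.Agent.P263B87

open Vale.Agent.P246.T Vale.Agent.P246.T.FM Vale.Agent.P263.AD.Freu Vale.Agent.P263B15

section Sph

variable {V : Type} [NormedAddCommGroup V] [NormedSpace ℝ V] [FiniteDimensional ℝ V]

theorem def_zero (y : OnePoint (V × ℝ)) : lft hNum hDen ((0 : I), y) = y := by
  induction y using OnePoint.rec with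
  | infty => rfl
  | coe v =>
    obtain ⟨x, s⟩ := v
    rw [lft_coe]
    have h1 : hNum ((0 : I), x, s) = (x, s) := by
      change (x, (1 - ((0 : I) : ℝ)) * s) = _
      simp
    have h2 : hDen ((0 : I), x, s) = 1 := by
      change max 0 (1 - ((0 : I) : ℝ) * |s|) = 1
      simp
    rw [h1, h2, dv_one]

theorem def_one (y : OnePoint (V × ℝ)) : lft hNum hDen ((1 : I), y) = incF (retF y) := by
  induction y using OnePoint.rec with
  | infty => rfl
  | coe v =>
    obtain ⟨x, s⟩ := v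
    rw [lft_coe, retF_coe]
    have h1 : hNum ((1 : I), x, s) = (x, 0) := by
      change (x, (1 - ((1 : I) : ℝ)) * s) = _
      simp
    have h2 : hDen ((1 : I), x, s) = max 0 (1 - |s|) := by
      change max 0 (1 - ((1 : I) : ℝ) * |s|) = _
      simp
    rw [h1, h2]
    by_cases h3 : max 0 (1 - |s|) = 0
    · rw [h3, dv_zero, dv_zero, incF_infty]
    · rw [dv_of_ne h3, dv_of_ne h3, incF_coe]
      congr 1
      exact Prod.ext rfl (smul_zero _)

theorem ret_inc (x : OnePoint V) : retF (incF x) = x :=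
  DFunLike.congr_fun (rM_iM (V := V)) x

theorem susp_zero (x : OnePoint V) (t : I) :
    lft sNum sDen (((0 : I), t), x) = if (t : ℝ) ≤ 1 / 2 then
      lft (cNum (cP V)) cDen (cl (2 - 4 * (t : ℝ)), incF x)
    else lft (cNum (cM V)) cDen (cl (2 * (t : ℝ) - 1), incF x) := by
  have ht0 := t.2.1
  have ht1 := t.2.2
  induction x using OnePoint.rec with
  | infty =>
    rw [incF_infty, lft_infty, lft_infty, lft_infty, ite_self]
  | coe v =>
    rw [incF_coe, lft_coe, lft_coe, lft_coe]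
    have h0 : prf (0, t) = max (-1) (min (4 * (t : ℝ) - 2) (2 * (t : ℝ) - 1)) := by
      unfold prf
      simp
    have h1 : sNum (((0 : I), t), v) = (v, prf (0, t)) := by
      change ((1 - ((0 : I) : ℝ) * _) • v, _) = _
      simp
    have h2 : sDen (((0 : I), t), v) = 1 - |prf (0, t)| := rfl
    rw [h1, h2]
    split_ifs with h
    · have h3 : prf (0, t) = -(cl (2 - 4 * (t : ℝ)) : ℝ) := by
        rw [h0, min_eq_left (by linarith)]
        change _ = -max 0 (min 1 (2 - 4 * (t : ℝ)))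
        rw [max_eq_right (le_min zero_le_one (by linarith))]
        rcases le_total 1 (2 - 4 * (t : ℝ)) with h4 | h4
        · rw [min_eq_left h4, max_eq_left (by linarith)]
        · rw [min_eq_right h4, max_eq_right (by linarith)]
          ring
      have h5 := (cl (2 - 4 * (t : ℝ))).2.1
      rw [h3, abs_neg, abs_of_nonneg h5]
      congr 1
      refine Prod.ext ?_ rfl
      refine Prod.ext ?_ ?_
      · change v = v - _ • (0 : V)
        rw [smul_zero, sub_zero]
      · change -(cl (2 - 4 * (t : ℝ)) : ℝ) = 0 - _ • (1 : ℝ)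
        simp
    · have h3 : prf (0, t) = (cl (2 * (t : ℝ) - 1) : ℝ) := by
        rw [h0, min_eq_right (by linarith), coe_cl (by linarith) (by linarith),
          max_eq_right (by linarith)]
      have h5 := (cl (2 * (t : ℝ) - 1)).2.1
      rw [h3, abs_of_nonneg h5]
      congr 1
      refine Prod.ext ?_ rfl
      refine Prod.ext ?_ ?_
      · change v = v - _ • (0 : V)
        rw [smul_zero, sub_zero]
      · change (cl (2 * (t : ℝ) - 1) : ℝ) = 0 - _ • (-1 : ℝ)
        simp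

end Sph

section Pas

variable {E E' P K X : Type} [NormedAddCommGroup E] [NormedSpace ℝ E] [NormedAddCommGroup E']
  [NormedSpace ℝ E'] [TopologicalSpace K] [TopologicalSpace X] [TopologicalSpace P]
  {s : E →L[ℝ] ℝ} {s' : E' →L[ℝ] ℝ} {k₀ : K}

theorem passive_lft {g : X → Su s k₀} {num : P × E → E'} {den : P × E → ℝ} (p : X → P)
    (hd : ∀ q, 0 ≤ den q) (hn : ∀ q, ∃ ρ : ℝ, 0 ≤ ρ ∧ s' (num q) = ρ * s q.2) :
    Passive s' g (fun x => lft num den (p x, (g x).1.1)) := by
  refine ⟨fun x hx => ?_, fun x e e' he he' => ?_⟩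
  · change lft num den (p x, (g x).1.1) = ∞
    rw [hx]
    rfl
  · have h1 : dv (num (p x, e), den (p x, e)) = (e' : OnePoint E') := by
      rw [← he', ← lft_coe, ← he]
    by_cases h : den (p x, e) = 0
    · rw [h, dv_zero] at h1
      exact absurd h1 (OnePoint.infty_ne_coe _)
    · rw [dv_of_ne h] at h1
      obtain ⟨ρ, hρ, h2⟩ := hn (p x, e)
      refine ⟨(den (p x, e))⁻¹ * ρ, mul_nonneg (inv_nonneg.2 (hd _)) hρ, ?_⟩
      rw [← OnePoint.coe_injective h1, _root_.map_smul, h2, smul_eq_mul, mul_assoc]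

/-- the complement of the fibre over `c` -/
def VV (s : E →L[ℝ] ℝ) (k₀ : K) (c : E) : Set (Su s k₀) := {p | p.1.1 ≠ (c : OnePoint E)}

theorem isOpen_VV (c : E) : IsOpen (VV s k₀ c) :=
  (isOpen_compl_singleton (x := (c : OnePoint E))).preimage Su.continuous_fst

theorem inf_mem_VV (c : E) : Su.inf s k₀ ∈ VV s k₀ c := OnePoint.infty_ne_coe _

variable [FiniteDimensional ℝ E]

theorem pas_contr (c : E) (hc : s c = 0) :
    Passive s (fun q : I × VV s k₀ c => q.2.1)
      (fun q => lft (cNum c) cDen (q.1, q.2.1.1.1)) :=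
  passive_lft (g := fun q : I × VV s k₀ c => q.2.1) (fun q => q.1)
    (fun q => sub_nonneg.2 q.1.2.2) (fun q => ⟨1, zero_le_one, by simp [cNum, hc]⟩)

/-- the contraction of the complement of the fibre over `c` -/
noncomputable def contrS (k₀ : K) (c : E) (hc : s c = 0) : Contr (VV s k₀ c) (Su.inf s k₀) where
  h := ⟨Su.lift (pas_contr c hc), Su.continuous_lift _ (by fun_prop)
    ((contr c).h.continuous.comp (f := fun q : I × VV s k₀ c =>
      (q.1, (⟨q.2.1.1.1, q.2.2⟩ : ({(c : OnePoint E)}ᶜ : Set (OnePoint E)))))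
      (continuous_fst.prodMk (Continuous.subtype_mk (Su.continuous_fst.comp
        (continuous_subtype_val.comp continuous_snd)) _)))⟩
  mem q := (contr c).mem (q.1, ⟨q.2.1.1.1, q.2.2⟩)
  zero x := Su.ext ((contr c).zero ⟨x.1.1.1, x.2⟩) fun h => Su.lift_snd (pas_contr c hc) h
  one x := Su.eq_inf ((contr c).one ⟨x.1.1.1, x.2⟩)
  base _ _ := Su.eq_inf rfl

theorem contrS_fst (c : E) (hc : s c = 0) (t : I) (x : VV s k₀ c) :
    ((contrS k₀ c hc).h (t, x)).1.1 = lft (cNum c) cDen (t, x.1.1.1) := rfl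

theorem contrS_snd (c : E) (hc : s c = 0) (t : I) (x : VV s k₀ c)
    (h : lft (cNum c) cDen (t, x.1.1.1) ≠ ∞) : ((contrS k₀ c hc).h (t, x)).1.2 = x.1.1.2 :=
  Su.lift_snd (pas_contr c hc) (x := (t, x)) h

/-- the whisker coordinate after one suspension -/
abbrev sF (s : E →L[ℝ] ℝ) : E × ℝ →L[ℝ] ℝ := s.comp (ContinuousLinearMap.fst ℝ E ℝ)

theorem sF_cM : sF s (cM E) = 0 := map_zero s

theorem sF_cP : sF s (cP E) = 0 := map_zero s

/-- the intersection of the two open sets -/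
abbrev WW (s : E →L[ℝ] ℝ) (k₀ : K) : Set (Su (sF s) k₀) :=
  VV (sF s) k₀ (cM E) ∩ VV (sF s) k₀ (cP E)

theorem pas_inc : Passive (sF s) (fun a : Su s k₀ => a) (fun a => incF a.1.1) :=
  passive_lft (g := fun a : Su s k₀ => a) (fun _ => ()) (fun _ => zero_le_one)
    (fun q => ⟨1, zero_le_one, by simp⟩)

/-- the inclusion of the equator -/
noncomputable def iS (s : E →L[ℝ] ℝ) (k₀ : K) : C(Su s k₀, WW s k₀) :=
  ⟨fun a => ⟨Su.lift pas_inc a, incF_mem a.1.1⟩, Continuous.subtype_mk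
    (Su.continuous_lift _ continuous_id (continuous_incF.comp Su.continuous_fst)) _⟩

theorem iS_snd (a : Su s k₀) (h : incF a.1.1 ≠ ∞) : (iS s k₀ a).1.1.2 = a.1.2 :=
  Su.lift_snd pas_inc h

/-- the first coordinate on the intersection -/
noncomputable def pW (s : E →L[ℝ] ℝ) (k₀ : K) : C(WW s k₀, ↥(VM E ∩ VP E)) :=
  ⟨fun y => ⟨y.1.1.1, y.2⟩,
    Continuous.subtype_mk (Su.continuous_fst.comp continuous_subtype_val) _⟩

theorem pas_ret : Passive s (fun y : WW s k₀ => y.1) (fun y => retF y.1.1.1) :=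
  passive_lft (g := fun y : WW s k₀ => y.1) (fun _ => ()) (fun _ => le_max_left _ _)
    (fun q => ⟨1, zero_le_one, by simp⟩)

/-- the retraction to the equator -/
noncomputable def rS (s : E →L[ℝ] ℝ) (k₀ : K) : C(WW s k₀, Su s k₀) :=
  ⟨Su.lift pas_ret, Su.continuous_lift _ continuous_subtype_val
    (rM.continuous.comp (pW s k₀).continuous)⟩

theorem rS_snd (y : WW s k₀) (h : retF y.1.1.1 ≠ ∞) : (rS s k₀ y).1.2 = y.1.1.2 :=
  Su.lift_snd pas_ret h

theorem rS_iS (a : Su s k₀) : rS s k₀ (iS s k₀ a) = a := by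
  refine Su.ext (ret_inc a.1.1) fun h => ?_
  refine (rS_snd _ h).trans (iS_snd a fun h2 => h ?_)
  change retF (incF a.1.1) = ∞
  rw [h2]
  rfl

theorem pas_def : Passive (sF s) (fun q : I × WW s k₀ => q.2.1)
    (fun q => lft hNum hDen (q.1, q.2.1.1.1)) :=
  passive_lft (g := fun q : I × WW s k₀ => q.2.1) (fun q => q.1) hDen_nonneg
    (fun q => ⟨1, zero_le_one, by simp [hNum]⟩)

theorem iS_rS : ((iS s k₀).comp (rS s k₀)).Homotopic (ContinuousMap.id _) := by
  symm
  refine homotopic_of (fun q => ⟨Su.lift pas_def q, def_mem q.2.2⟩) (Continuous.subtype_mk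
    (Su.continuous_lift _ (by fun_prop) (continuous_subtype_val.comp (defM.continuous.comp
      (continuous_fst.prodMk ((pW s k₀).continuous.comp continuous_snd))))) _) ?_ ?_
  · intro y
    exact Subtype.ext (Su.ext (def_zero _) fun h => Su.lift_snd pas_def h)
  · intro y
    refine Subtype.ext (Su.ext (def_one _) fun h => ?_)
    have h1 : incF (retF y.1.1.1) ≠ ∞ := fun h2 => h ((def_one _).trans h2)
    have h2 : retF y.1.1.1 ≠ ∞ := fun h2 => h1 (by rw [h2]; rfl)
    exact (Su.lift_snd pas_def h).trans ((iS_snd (rS s k₀ y) h1).trans (rS_snd y h2)).symm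

theorem pas_susp : Passive (sF s) (fun q : (I × Su s k₀) × I => q.1.2)
    (fun q => lft sNum sDen ((q.1.1, q.2), q.1.2.1.1)) :=
  passive_lft (g := fun q : (I × Su s k₀) × I => q.1.2) (fun q => (q.1.1, q.2))
    (fun q => sub_nonneg.2 (prf_abs q.1))
    (fun q => ⟨1 - (q.1.1 : ℝ) * |prf q.1|, by
      have h1 := prf_abs q.1
      have h2 := q.1.1.2.2
      have h3 := abs_nonneg (prf q.1)
      nlinarith, by simp [sNum]⟩)

/-- the homotopy of paths -/
noncomputable def suP (s : E →L[ℝ] ℝ) (k₀ : K) : C(I × Su s k₀, PP (Su.inf (sF s) k₀)) :=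
  mkP (Su.lift pas_susp) (Su.continuous_lift _ (by fun_prop) (continuous_susp.comp
    (((continuous_fst.comp continuous_fst).prodMk continuous_snd).prodMk
      (Su.continuous_fst.comp (continuous_snd.comp continuous_fst)))))
    (fun q => Su.eq_inf (susp_of_abs (by
      rw [prf_start]
      norm_num)))

/-- the homotopy of loops -/
noncomputable def suH (s : E →L[ℝ] ℝ) (k₀ : K) : C(I × Su s k₀, Lp (Su.inf (sF s) k₀)) :=
  ⟨fun q => ⟨suP s k₀ q, Su.eq_inf (susp_of_abs (by rw [prf_end]; norm_num))⟩,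
    Continuous.subtype_mk (suP s k₀).continuous _⟩

/-- the suspension map -/
noncomputable def jSu (s : E →L[ℝ] ℝ) (k₀ : K) : C(Su s k₀, Lp (Su.inf (sF s) k₀)) :=
  ⟨fun a => suH s k₀ (1, a), by fun_prop⟩

theorem jSu_fst (a : Su s k₀) (t : I) : ((jSu s k₀ a).1.1 t).1.1 = (jS a.1.1).1.1 t := rfl

theorem jSu_snd (a : Su s k₀) (t : I) (h : (jS a.1.1).1.1 t ≠ ∞) :
    ((jSu s k₀ a).1.1 t).1.2 = a.1.2 :=
  Su.lift_snd pas_susp (x := ((1, a), t)) h

theorem jSu_half (a : Su s k₀) : (jSu s k₀ a).1.1 hf = (iS s k₀ a).1 := by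
  refine Su.ext (jS_half a.1.1) fun h => ?_
  exact (jSu_snd a hf h).trans (iS_snd a fun h2 => h ((jS_half a.1.1).trans h2)).symm

theorem isEmbedding_jSu : IsEmbedding (jSu s k₀) := by
  have h1 : IsEmbedding (iS s k₀) :=
    Function.LeftInverse.isEmbedding rS_iS (rS s k₀).continuous (iS s k₀).continuous
  have h2 := IsEmbedding.subtypeVal.comp h1
  refine IsEmbedding.of_comp (g := fun γ : Lp (Su.inf (sF s) k₀) => γ.1.1 hf)
    (jSu s k₀).continuous (by fun_prop) ?_
  convert h2 using 1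
  exact funext jSu_half

theorem clut_suH (a : Su s k₀) : suH s k₀ (0, a) =
    clut (contrS k₀ (cM E) sF_cM) (contrS k₀ (cP E) sF_cP) (iS s k₀ a) := by
  refine Subtype.ext (pp_ext fun t => ?_)
  refine Eq.trans ?_ (clut_apply _ _ (iS s k₀ a) t).symm
  have h0 := susp_zero a.1.1 t
  have h9 : ∀ (c : E × ℝ) (τ : I), lft (cNum c) cDen (τ, incF a.1.1) ≠ ∞ → incF a.1.1 ≠ ∞ :=
    fun c τ h h2 => h (by rw [h2]; rfl)
  split_ifs at h0 ⊢ with h
  · refine Su.ext h0 fun h1 => ?_
    have h2 := fun h3 => h1 (h0.trans h3)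
    exact (Su.lift_snd pas_susp (x := ((0, a), t)) h1).trans
      ((contrS_snd (cP E) sF_cP (cl (2 - 4 * (t : ℝ))) ⟨_, (iS s k₀ a).2.2⟩ h2).trans (iS_snd a (h9 _ _ h2))).symm
  · refine Su.ext h0 fun h1 => ?_
    have h2 := fun h3 => h1 (h0.trans h3)
    exact (Su.lift_snd pas_susp (x := ((0, a), t)) h1).trans
      ((contrS_snd (cM E) sF_cM (cl (2 * (t : ℝ) - 1)) ⟨_, (iS s k₀ a).2.1⟩ h2).trans (iS_snd a (h9 _ _ h2))).symm

/-- **`Su (sF s) k₀` is the suspension of `Su s k₀`.** -/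
noncomputable def suspS (s : E →L[ℝ] ℝ) (k₀ : K) :
    SuspData (Su s k₀) (Su (sF s) k₀) (Su.inf s k₀) (Su.inf (sF s) k₀) where
  V₁ := VV (sF s) k₀ (cM E)
  V₂ := VV (sF s) k₀ (cP E)
  o₁ := isOpen_VV _
  o₂ := isOpen_VV _
  cov := eq_univ_of_forall fun p => (VM_union_VP E).symm.subset (mem_univ p.1.1)
  m₁ := inf_mem_VV _
  m₂ := inf_mem_VV _
  c₁ := contrS k₀ (cM E) sF_cM
  c₂ := contrS k₀ (cP E) sF_cP
  i := iS s k₀
  r := rS s k₀
  ir := iS_rS
  ri := by
    rw [show (rS s k₀).comp (iS s k₀) = ContinuousMap.id _ from ContinuousMap.ext rS_iS]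
  j := jSu s k₀
  emb := isEmbedding_jSu
  base := Subtype.ext (pp_ext fun _ => Su.eq_inf rfl)
  cl := homotopic_of (fun q => suH s k₀ q) (suH s k₀).continuous clut_suH fun _ => rfl

end Pas

end Vale.Agent.P263B87
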